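import Mathlib
import Vale.Agent.P136.Defs
import Vale.Agent.P136.Full.Answer

/-!
# P136: global uniqueness of the Lamé moduli from the displacement-to-traction map
-/

open MeasureTheory Set
open scoped ContDiff

namespace Vale.Agent.Results.P136.GlobalUniqueness

open Vale.Agent.P136

/-- On a bounded connected smooth domain in three-space, the displacement-to-traction map
determines both Lamé moduli. -/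
theorem result (Ω : Set (Fin 3 → ℝ)) (hopen : IsOpen Ω) (hbdd : Bornology.IsBounded Ω)
    (hconn : IsConnected Ω)
    (hsmooth : ∀ z ∈ frontier Ω, ∃ U : Set (Fin 3 → ℝ), IsOpen U ∧ z ∈ U ∧
      ∃ ρ : (Fin 3 → ℝ) → ℝ, ContDiff ℝ ∞ ρ ∧ fderiv ℝ ρ z ≠ 0 ∧ Ω ∩ U = {x ∈ U | ρ x < 0})
    (lam₁ mu₁ lam₂ mu₂ : (Fin 3 → ℝ) → ℝ)
    (hl₁ : ContDiff ℝ ∞ lam₁) (hm₁ : ContDiff ℝ ∞ mu₁)
    (hl₂ : ContDiff ℝ ∞ lam₂) (hm₂ : ContDiff ℝ ∞ mu₂)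
    (hadm₁ : ∀ x ∈ closure Ω, 0 < mu₁ x ∧ 0 < 3 * lam₁ x + 2 * mu₁ x)
    (hadm₂ : ∀ x ∈ closure Ω, 0 < mu₂ x ∧ 0 < 3 * lam₂ x + 2 * mu₂ x)
    (hmap : SameMap Ω lam₁ mu₁ lam₂ mu₂) :
    ∀ x ∈ closure Ω, lam₁ x = lam₂ x ∧ mu₁ x = mu₂ x :=
  Full.uniqueness Ω ⟨hopen, hbdd, hsmooth⟩ hconn lam₁ mu₁ lam₂ mu₂ hl₁ hm₁ hl₂ hm₂ hadm₁ hadm₂ hmap

end Vale.Agent.Results.P136.GlobalUniqueness
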